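import Vale.Agent.P208.H257.Main

namespace Vale.Agent.Results.P208.DoublingDichotomy

open Vale.Agent.P208

/-- (1) Q1 as posed: a countable compact doubling subset of `ℓ²` without bi-Lipschitz embedding
into any `ℝ^k`. (2) The same inside EVERY infinite-dimensional real normed space `Y` (complete or
not), with one absolute doubling constant, also with finite sets. (3) A real normed space is
finite-dimensional if and only if all its doubling subsets embed bi-Lipschitzly into some `ℝ^k`. -/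
theorem result :
    (∃ X : Set (lp (fun _ : ℕ => ℝ) 2), IsCompact X ∧ X.Countable ∧ (∃ lam : ℕ, Doubling lam X) ∧
      ∀ (k : ℕ) (D : ℝ), ¬ Embeds X k D) ∧
    (∃ lam : ℕ, ∀ (Y : Type) [NormedAddCommGroup Y] [NormedSpace ℝ Y], ¬ FiniteDimensional ℝ Y →
      (∃ X : Set Y, IsCompact X ∧ X.Countable ∧ Doubling lam X ∧
        ∀ (k : ℕ) (D : ℝ), ¬ Embeds X k D) ∧
      ∀ (k : ℕ) (D : ℝ), ∃ X : Set Y, X.Finite ∧ Doubling lam X ∧ ¬ Embeds X k D) ∧
    (∀ (Y : Type) [NormedAddCommGroup Y] [NormedSpace ℝ Y], FiniteDimensional ℝ Y ↔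
      ∀ (X : Set Y) (lam : ℕ), Doubling lam X → ∃ (k : ℕ) (D : ℝ), Embeds X k D) := by
  refine ⟨?_, ⟨D257.lamA, fun Y _ _ hY => D257.main_inf hY⟩, fun Y _ _ => D257.main_iff Y⟩
  obtain ⟨X, h1, h2, h3, h4⟩ := (D257.main_inf D257.not_finiteDimensional_l2).1
  exact ⟨X, h1, h2, ⟨_, h3⟩, h4⟩

end Vale.Agent.Results.P208.DoublingDichotomy
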