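import Vale.Agent.P208.H124.Final

open Vale.Agent.P208.H124

/-- (1) The question as posed, negatively, with a compact doubling set `X` in `ℓ²` which is
moreover nowhere locally embeddable: no nonempty relatively open subset of `X` has a bi-Lipschitz
embedding into any `ℝ^k`. (2) With one absolute doubling constant, every infinite-dimensional real
normed space `Y` contains a closed totally bounded (so compact, if `Y` is complete) set of this
kind, and for all `k`, `D` a finite set without embedding into `ℝ^k` of distortion at most `D`.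
(3) A real Banach space is finite-dimensional if and only if every nonempty compact doubling subset
has a nonempty relatively open part which embeds bi-Lipschitzly into some `ℝ^k`. -/
theorem Vale.Agent.Results.P208.NowhereEmbeddable.result :
    (∃ X : Set (lp (fun _ : ℕ => ℝ) 2), X.Nonempty ∧ IsCompact X ∧ (∃ N : ℕ, IsDoubling N X) ∧
      (∀ (k : ℕ) (D : ℝ), ¬ BiLip X k D) ∧ NowhereBiLip X) ∧
    (∃ N : ℕ, ∀ (Y : Type) [NormedAddCommGroup Y] [NormedSpace ℝ Y], ¬ FiniteDimensional ℝ Y →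
      (∃ X : Set Y, X.Nonempty ∧ IsClosed X ∧ TotallyBounded X ∧ IsDoubling N X ∧
        NowhereBiLip X) ∧
      ∀ (k : ℕ) (D : ℝ), ∃ X : Set Y, X.Finite ∧ IsDoubling N X ∧ ¬ BiLip X k D) ∧
    ∀ (Y : Type) [NormedAddCommGroup Y] [NormedSpace ℝ Y] [CompleteSpace Y],
      FiniteDimensional ℝ Y ↔ ∀ X : Set Y, X.Nonempty → IsCompact X → (∃ N : ℕ, IsDoubling N X) →
        ∃ U, IsOpen U ∧ (X ∩ U).Nonempty ∧ ∃ (k : ℕ) (D : ℝ), BiLip (X ∩ U) k D := by
  refine ⟨?_, ⟨const, fun Y _ _ hY => ⟨exists_local hY, exists_finite_bad hY⟩⟩,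
    fun Y _ _ _ => ⟨?_, ?_⟩⟩
  · obtain ⟨X, h1, h2, h3, h4, h5⟩ := exists_local Vale.Agent.P208.D257.not_finiteDimensional_l2
    exact ⟨X, h1, h3.isCompact_of_isClosed h2, ⟨_, h4⟩, h5.not_biLip h1, h5⟩
  · intro h X hX _ _
    obtain ⟨k, D, hkD⟩ := Vale.Agent.P208.D257.embeds_of_finiteDimensional (X ∩ Set.univ)
    exact ⟨Set.univ, isOpen_univ, by rwa [Set.inter_univ], k, D, biLip_of_embeds hkD⟩
  · intro h
    by_contra hY
    obtain ⟨X, h1, h2, h3, h4, h5⟩ := exists_local hY
    obtain ⟨U, hU, hne, k, D, he⟩ := h X h1 (h3.isCompact_of_isClosed h2) ⟨_, h4⟩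
    exact h5 U hU hne k D he
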