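import Vale.Agent.P208.H560.Main

namespace Vale.Agent.Results.P208.RectifiableArc

open Vale.Agent.P208.H560
open scoped NNReal

/-- (1) Q1 as posed: a compact doubling subset of `ℓ²` without bi-Lipschitz embedding into any
`ℝ^k`. (2) With one absolute doubling constant, EVERY infinite-dimensional real normed space `Y`
(complete or not) contains
(a) a doubling rectifiable ARC without bi-Lipschitz embedding into any `ℝ^k`: the image of an
injective Lipschitz map `γ : [0,1] → Y`, bi-Lipschitz on `[δ,1]` for every `δ > 0`;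
(b) a `1`-separated doubling set without quasi-isometric embedding into any `ℝ^k`;
(c) for all `k` and `D` a finite doubling set without embedding into `ℝ^k` of distortion at
most `D`. -/
theorem result :
    (∃ X : Set Ell2, IsCompact X ∧ (∃ lam : ℕ, IsDoubling lam X) ∧
      ¬ ∃ (k : ℕ) (f : X → EuclideanSpace ℝ (Fin k)) (K L : ℝ≥0),
        LipschitzWith K f ∧ AntilipschitzWith L f) ∧
    ∃ lam : ℕ, ∀ (Y : Type) [NormedAddCommGroup Y] [NormedSpace ℝ Y], ¬ FiniteDimensional ℝ Y →
      (∃ (γ : unitInterval → Y) (K : ℝ≥0), LipschitzWith K γ ∧ Function.Injective γ ∧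
        (∀ δ : ℝ, 0 < δ → ∃ c : ℝ, 0 < c ∧ ∀ s t : unitInterval, δ ≤ s → δ ≤ t →
          c * dist s t ≤ dist (γ s) (γ t)) ∧
        IsDoubling lam (Set.range γ) ∧
        ¬ ∃ (k : ℕ) (f : Set.range γ → EuclideanSpace ℝ (Fin k)) (K L : ℝ≥0),
          LipschitzWith K f ∧ AntilipschitzWith L f) ∧
      (∃ X : Set Y, X.Pairwise (fun x y => 1 ≤ dist x y) ∧ IsDoubling lam X ∧
        ∀ (k : ℕ) (f : X → EuclideanSpace ℝ (Fin k)) (L C : ℝ), 0 < L →
          ¬ ∀ x y : X, dist x y / L - C ≤ dist (f x) (f y) ∧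
            dist (f x) (f y) ≤ L * dist x y + C) ∧
      ∀ (k : ℕ) (D : ℝ), ∃ X : Set Y, X.Finite ∧ IsDoubling lam X ∧
        ∀ (f : X → EuclideanSpace ℝ (Fin k)) (a : ℝ), 0 < a →
          ¬ ∀ x y : X, a * dist x y ≤ dist (f x) (f y) ∧
            dist (f x) (f y) ≤ D * a * dist x y := by
  refine ⟨?_, lamF, fun Y _ _ hY => ⟨main_arc hY, main_coarse hY, main_finite hY⟩⟩
  obtain ⟨γ, K, h1, -, -, h4, h5⟩ := main_arc Vale.Agent.P208.D257.not_finiteDimensional_l2
  exact ⟨Set.range γ, isCompact_range h1.continuous, ⟨_, h4⟩, h5⟩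

end Vale.Agent.Results.P208.RectifiableArc
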